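import Vale.Agent.P198.C5.Weak
import Vale.Agent.P198.W.Conf
import Mathlib.Analysis.InnerProductSpace.Harmonic.Constructions

/-! A homeomorphism between plane open sets which, in both directions, does not increase the
Dirichlet integral of test functions is holomorphic or antiholomorphic. -/

namespace P198C5

open MeasureTheory Filter Topology Vale.Agent.P363.R.Sob
open scoped ContDiff InnerProductSpace Laplacian ComplexConjugate

noncomputable section

theorem laplacian_re_entire {f : ℂ → ℂ} (hf : ∀ x, AnalyticAt ℂ f x) (x : ℂ) :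
    (Δ (fun z => (f z).re)) x = 0 := ((hf x).harmonicAt_re).2.self_of_nhds

theorem laplacian_im_entire {f : ℂ → ℂ} (hf : ∀ x, AnalyticAt ℂ f x) (x : ℂ) :
    (Δ (fun z => (f z).im)) x = 0 := ((hf x).harmonicAt_im).2.self_of_nhds

theorem contDiff_re_sq : ContDiff ℝ ∞ (fun z : ℂ => (z ^ 2).re) :=
  Complex.reCLM.contDiff.comp (contDiff_id.pow 2)

theorem contDiff_im_sq : ContDiff ℝ ∞ (fun z : ℂ => (z ^ 2).im) :=
  Complex.imCLM.contDiff.comp (contDiff_id.pow 2)

variable {γ : OpenPartialHomeomorph ℂ ℂ}

theorem weak_harmonic' (h1 : Contr γ) (h2 : Contr γ.symm) {p : ℂ → ℝ} (hp : ContDiff ℝ ∞ p)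
    (hΔ : ∀ x, (Δ p) x = 0) (ψ : ℂ → ℝ) (hψ : ContDiff ℝ ∞ ψ) (hc : HasCompactSupport ψ)
    (hs : tsupport ψ ⊆ γ.source) : ∫ z, p (γ z) * P198W.lap ψ z = 0 := by
  rw [← weak_harmonic h1 h2 hp hΔ hψ hc hs]
  refine integral_congr_ae (Eventually.of_forall fun z => ?_)
  simp only
  rw [P198W.laplacian_eq_lap (hψ.contDiffAt.of_le P198W.two_le_infty)]

/-- **Block C5.** If `γ` and `γ⁻¹` do not increase the Dirichlet integral of test functions then
`γ` is holomorphic or antiholomorphic. -/
theorem holo_or_anti (γ : OpenPartialHomeomorph ℂ ℂ) (hU : IsPreconnected γ.source)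
    (h1 : Contr γ) (h2 : Contr γ.symm) :
    DifferentiableOn ℂ γ γ.source ∨ DifferentiableOn ℂ (fun z => conj (γ z)) γ.source := by
  have w1 := weak_harmonic' h1 h2 Complex.reCLM.contDiff
    (laplacian_re_entire (f := fun z => z) fun x => analyticAt_id)
  have w2 := weak_harmonic' h1 h2 Complex.imCLM.contDiff
    (laplacian_im_entire (f := fun z => z) fun x => analyticAt_id)
  have w3 := weak_harmonic' h1 h2 contDiff_im_sq
    (laplacian_im_entire (f := fun z => z ^ 2) fun x => analyticAt_id.pow 2)
  have w4 := weak_harmonic' h1 h2 contDiff_re_sq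
    (laplacian_re_entire (f := fun z => z ^ 2) fun x => analyticAt_id.pow 2)
  refine P198W.conformal_end γ.open_source hU γ.continuousOn ?_ ?_ ?_ ?_
  · exact fun ψ a b c => w1 ψ a b c
  · exact fun ψ a b c => w2 ψ a b c
  · intro ψ a b c
    have := w3 ψ a b c
    have e : ∀ z, ((γ z) ^ 2).im * P198W.lap ψ z =
        2 * (((γ z).re * (γ z).im) * P198W.lap ψ z) := by
      intro z
      rw [pow_two, Complex.mul_im]; ring
    simp only [e] at this
    rw [integral_const_mul] at this
    linarith
  · intro ψ a b c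
    have := w4 ψ a b c
    have e : ∀ z, ((γ z) ^ 2).re = (γ z).re * (γ z).re - (γ z).im * (γ z).im := by
      intro z
      rw [pow_two, Complex.mul_re]
    simp only [e] at this
    exact this

end

end P198C5
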