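import Vale.Agent.P198.C5.Lsc

/-! Linear change of variables: constant coefficients can be normalised to the identity. -/

namespace P198C5

open MeasureTheory Filter Topology Vale.Agent.P363.R.Sob
open scoped ContDiff ENNReal InnerProductSpace Gradient

noncomputable section

/-- `T γ T⁻¹` -/
def cj (T : ℂ ≃L[ℝ] ℂ) (γ : OpenPartialHomeomorph ℂ ℂ) : OpenPartialHomeomorph ℂ ℂ where
  toFun x := T (γ (T.symm x))
  invFun y := T (γ.symm (T.symm y))
  source := T.symm ⁻¹' γ.source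
  target := T.symm ⁻¹' γ.target
  map_source' x hx := by
    simp only [Set.mem_preimage, ContinuousLinearEquiv.symm_apply_apply]
    exact γ.map_source hx
  map_target' x hx := by
    simp only [Set.mem_preimage, ContinuousLinearEquiv.symm_apply_apply]
    exact γ.map_target hx
  left_inv' x hx := by
    simp only [ContinuousLinearEquiv.symm_apply_apply]
    rw [γ.left_inv hx]; simp
  right_inv' x hx := by
    simp only [ContinuousLinearEquiv.symm_apply_apply]
    rw [γ.right_inv hx]; simp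
  open_source := γ.open_source.preimage T.symm.continuous
  open_target := γ.open_target.preimage T.symm.continuous
  continuousOn_toFun := T.continuous.comp_continuousOn
    (γ.continuousOn.comp T.symm.continuous.continuousOn fun _ h => h)
  continuousOn_invFun := T.continuous.comp_continuousOn
    (γ.symm.continuousOn.comp T.symm.continuous.continuousOn fun _ h => h)

theorem cj_symm (T : ℂ ≃L[ℝ] ℂ) (γ : OpenPartialHomeomorph ℂ ℂ) : (cj T γ).symm = cj T γ.symm :=
  rfl

theorem cj_apply (T : ℂ ≃L[ℝ] ℂ) (γ : OpenPartialHomeomorph ℂ ℂ) (x : ℂ) :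
    cj T γ x = T (γ (T.symm x)) := rfl

theorem cj_source (T : ℂ ≃L[ℝ] ℂ) (γ : OpenPartialHomeomorph ℂ ℂ) :
    (cj T γ).source = T.symm ⁻¹' γ.source := rfl

theorem cj_target (T : ℂ ≃L[ℝ] ℂ) (γ : OpenPartialHomeomorph ℂ ℂ) :
    (cj T γ).target = T.symm ⁻¹' γ.target := rfl

/-! ### linear algebra -/

theorem exists_equiv_of_injective (S : ℂ →L[ℝ] ℂ) (h : ∀ v, S v = 0 → v = 0) :
    ∃ S' : ℂ ≃L[ℝ] ℂ, ∀ v, S' v = S v := by
  have hi : Function.Injective (S : ℂ →ₗ[ℝ] ℂ) := by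
    rw [injective_iff_map_eq_zero]
    exact h
  refine ⟨(LinearEquiv.ofInjectiveEndo (S : ℂ →ₗ[ℝ] ℂ) hi).toContinuousLinearEquiv, fun v => ?_⟩
  rfl

/-- the adjoint equivalence -/
theorem exists_adj (S : ℂ ≃L[ℝ] ℂ) :
    ∃ S' : ℂ ≃L[ℝ] ℂ, ∀ v w, (inner ℝ (S' v) w : ℝ) = inner ℝ v (S w) := by
  obtain ⟨S', hS'⟩ := exists_equiv_of_injective (ContinuousLinearMap.adjoint (S : ℂ →L[ℝ] ℂ))
    (fun v hv => by
      refine ext_inner_right ℝ fun w => ?_
      have h1 := ContinuousLinearMap.adjoint_inner_left (S : ℂ →L[ℝ] ℂ) (S.symm w) v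
      rw [hv, inner_zero_left] at h1
      rw [inner_zero_left]
      simpa using h1.symm)
  refine ⟨S', fun v w => ?_⟩
  rw [hS', ContinuousLinearMap.adjoint_inner_left]
  rfl

/-- a positive quadratic form is the square of the norm of a linear map -/
theorem exists_sqrt {lam : ℝ} (hlam : 0 < lam) (B : ℂ →L[ℝ] ℂ)
    (hs : ∀ v w, (inner ℝ (B v) w : ℝ) = inner ℝ v (B w))
    (hl : ∀ v, lam * ‖v‖ ^ 2 ≤ inner ℝ (B v) v) :
    ∃ S : ℂ ≃L[ℝ] ℂ, ∀ v, ‖S v‖ ^ 2 = inner ℝ (B v) v := by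
  set a : ℝ := inner ℝ (B 1) 1 with ha
  set b : ℝ := inner ℝ (B 1) Complex.I with hb
  set c : ℝ := inner ℝ (B Complex.I) Complex.I with hc
  have hb' : (inner ℝ (B Complex.I) 1 : ℝ) = b := by
    rw [hs, real_inner_comm]
  have hq : ∀ v : ℂ, (inner ℝ (B v) v : ℝ) = a * v.re ^ 2 + 2 * b * (v.re * v.im) + c * v.im ^ 2 := by
    intro v
    have e : v = v.re • (1 : ℂ) + v.im • Complex.I := by
      simp [Complex.re_add_im]
    have e1 : B v = v.re • B 1 + v.im • B Complex.I := by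
      conv_lhs => rw [e]
      rw [map_add, map_smul, map_smul]
    rw [e1]
    conv_lhs => rw [e]
    have r1 : (v.re • (1:ℂ) + v.im • Complex.I).re = v.re := by rw [← e]
    have r2 : (v.re • (1:ℂ) + v.im • Complex.I).im = v.im := by rw [← e]
    rw [r1, r2]
    simp only [inner_add_left, inner_add_right, real_inner_smul_left, real_inner_smul_right]
    rw [hb']
    ring
  have ha0 : 0 < a := by
    have := hl 1
    simp only [norm_one, one_pow, mul_one] at this
    linarith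
  set D : ℝ := c - b ^ 2 / a with hD
  have hD0 : 0 < D := by
    have h1 := hl ⟨-b / a, 1⟩
    rw [hq] at h1
    simp only at h1
    have h2 : 1 ≤ ‖(⟨-b / a, 1⟩ : ℂ)‖ ^ 2 := by
      rw [← Complex.normSq_eq_norm_sq, Complex.normSq_mk]
      nlinarith [sq_nonneg (-b / a)]
    have h3 : a * (-b / a) ^ 2 + 2 * b * ((-b / a) * 1) + c * 1 ^ 2 = D := by
      rw [hD]; field_simp; ring
    rw [h3] at h1
    nlinarith
  -- the upper triangular square root
  let S0 : ℂ →L[ℝ] ℂ :=
    (Complex.reCLM.smulRight ((√a : ℝ) : ℂ)) + (Complex.imCLM.smulRight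
      ((b / √a : ℝ) : ℂ)) + (Complex.imCLM.smulRight (((√D : ℝ) : ℂ) * Complex.I))
  have hS0 : ∀ v, ‖S0 v‖ ^ 2 = inner ℝ (B v) v := by
    intro v
    rw [hq]
    have hre : (S0 v).re = √a * v.re + b / √a * v.im := by
      simp [S0]; ring
    have him : (S0 v).im = √D * v.im := by
      simp [S0]; ring
    rw [← Complex.normSq_eq_norm_sq, Complex.normSq_apply, hre, him]
    have e1 : √a * √a = a := Real.mul_self_sqrt ha0.le
    have e2 : √D * √D = D := Real.mul_self_sqrt hD0.le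
    have e3 : √a ≠ 0 := (Real.sqrt_pos.2 ha0).ne'
    have e4 : (b / √a) * (b / √a) = b ^ 2 / a := by
      rw [div_mul_div_comm, e1, sq]
    have e5 : √a * (b / √a) = b := by field_simp
    calc (√a * v.re + b / √a * v.im) * (√a * v.re + b / √a * v.im) +
          √D * v.im * (√D * v.im)
        = (√a * √a) * v.re ^ 2 + 2 * (√a * (b / √a)) * (v.re * v.im) +
          ((b / √a) * (b / √a)) * v.im ^ 2 + (√D * √D) * v.im ^ 2 := by ring
      _ = _ := by rw [e1, e2, e4, e5, hD]; ring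
  obtain ⟨S, hS⟩ := exists_equiv_of_injective S0 (fun v hv => by
    have h1 := hS0 v
    rw [hv, norm_zero] at h1
    have h2 := hl v
    rw [← h1] at h2
    have h3 : ‖v‖ ^ 2 ≤ 0 := by nlinarith
    have h4 : ‖v‖ = 0 := by nlinarith [sq_nonneg ‖v‖, norm_nonneg v]
    exact norm_eq_zero.1 h4)
  exact ⟨S, fun v => by rw [hS, hS0]⟩

/-! ### change of variables -/

theorem exists_cov (A : ℂ ≃L[ℝ] ℂ) :
    ∃ c : ℝ, 0 < c ∧ ∀ F : ℂ → ℝ, ∫ x, F (A x) = c * ∫ y, F y := by
  have hdet : LinearMap.det (A : ℂ →ₗ[ℝ] ℂ) ≠ 0 := by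
    have := LinearEquiv.isUnit_det' A.toLinearEquiv
    exact this.ne_zero
  set c : ℝ≥0∞ := ENNReal.ofReal |(LinearMap.det (A : ℂ →ₗ[ℝ] ℂ))⁻¹| with hc
  have hmap : Measure.map (fun x => A x) volume = c • (volume : Measure ℂ) :=
    Measure.map_linearMap_addHaar_eq_smul_addHaar volume hdet
  have hemb : MeasurableEmbedding (fun x => A x) := A.toHomeomorph.measurableEmbedding
  refine ⟨c.toReal, ?_, fun F => ?_⟩
  · rw [hc, ENNReal.toReal_ofReal (abs_nonneg _)]
    positivity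
  · rw [← hemb.integral_map F, hmap, integral_smul_measure]
    rfl

theorem memLp_comp_linear (A : ℂ ≃L[ℝ] ℂ) {g : ℂ → ℂ} (hg : MemLp g 2 volume) :
    MemLp (fun x => g (A x)) 2 volume := by
  have hdet : LinearMap.det (A : ℂ →ₗ[ℝ] ℂ) ≠ 0 := by
    have := LinearEquiv.isUnit_det' A.toLinearEquiv
    exact this.ne_zero
  have hmap : Measure.map (fun x => A x) volume =
      ENNReal.ofReal |(LinearMap.det (A : ℂ →ₗ[ℝ] ℂ))⁻¹| • (volume : Measure ℂ) :=
    Measure.map_linearMap_addHaar_eq_smul_addHaar volume hdet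
  have hemb : MeasurableEmbedding (fun x => A x) := A.toHomeomorph.measurableEmbedding
  have h1 : MemLp g 2 (Measure.map (fun x => A x) volume) := by
    rw [hmap]
    exact hg.smul_measure ENNReal.ofReal_ne_top
  exact (hemb.memLp_map_measure_iff).1 h1

/-- weak gradients under a linear change of variables; `A'` is the adjoint of `A` -/
theorem WG.comp_linear {u : ℂ → ℝ} {g : ℂ → ℂ} (h : WG u g) (A A' : ℂ ≃L[ℝ] ℂ)
    (hA : ∀ v w, (inner ℝ (A' v) w : ℝ) = inner ℝ v (A w)) :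
    WG (fun x => u (A x)) (fun x => A' (g (A x))) := by
  refine WG.of_isWD ?_ fun v => ?_
  · exact (A' : ℂ →L[ℝ] ℂ).comp_memLp' (memLp_comp_linear A h.1)
  · have h1 := (h.isWD (A v)).comp_linear A
    rw [ContinuousLinearEquiv.symm_apply_apply] at h1
    simpa only [hA] using h1

theorem gradient_comp_linear {φ : ℂ → ℝ} (hφ : Differentiable ℝ φ) (A A' : ℂ ≃L[ℝ] ℂ)
    (hA : ∀ v w, (inner ℝ (A' v) w : ℝ) = inner ℝ v (A w)) (x : ℂ) :
    ∇ (fun x => φ (A x)) x = A' (∇ φ (A x)) := by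
  refine ext_inner_right ℝ fun w => ?_
  have hd : HasFDerivAt (fun x => φ (A x)) ((fderiv ℝ φ (A x)).comp (A : ℂ →L[ℝ] ℂ)) x :=
    (hφ (A x)).hasFDerivAt.comp x A.hasFDerivAt
  have hd' : Differentiable ℝ (fun x => φ (A x)) := hφ.comp A.differentiable
  rw [inner_gradient hd', hA, inner_gradient hφ, hd.fderiv]
  rfl

theorem test_comp_linear {φ : ℂ → ℝ} (hφ : Test φ) (A : ℂ ≃L[ℝ] ℂ) :
    Test (fun x => φ (A x)) :=
  ⟨hφ.1.comp A.contDiff, hφ.2.comp_homeomorph A.toHomeomorph⟩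

theorem tsupport_comp_linear {φ : ℂ → ℝ} (A : ℂ ≃L[ℝ] ℂ) {V : Set ℂ} (h : tsupport φ ⊆ V) :
    tsupport (fun x => φ (A x)) ⊆ A ⁻¹' V := by
  refine subset_trans ?_ (Set.preimage_mono h)
  refine closure_minimal (fun x hx => ?_) ((isClosed_tsupport φ).preimage A.continuous)
  exact subset_tsupport φ hx

/-- **normalisation**: if `γ` does not increase `∫ ⟨B ∇, ∇⟩` (`B` constant), `B = S* S` and `S'` is
the adjoint of `S`, then `S'⁻¹ γ S'` does not increase the Dirichlet integral. -/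
theorem contr_cj {B : ℂ →L[ℝ] ℂ} {S S' : ℂ ≃L[ℝ] ℂ} (hS : ∀ v, ‖S v‖ ^ 2 = inner ℝ (B v) v)
    (hS' : ∀ v w, (inner ℝ (S' v) w : ℝ) = inner ℝ v (S w)) {γ : OpenPartialHomeomorph ℂ ℂ}
    (h : ∀ φ : ℂ → ℝ, ContDiff ℝ ∞ φ → HasCompactSupport φ → tsupport φ ⊆ γ.target →
      DLe (fun _ => B) (γ.source.indicator (φ ∘ γ)) (En (fun _ => B) (∇ φ))) :
    Contr (cj S'.symm γ) := by
  intro φ' hφ1 hφ2 hφs
  have hφ' : Test φ' := ⟨hφ1, hφ2⟩
  set T : ℂ ≃L[ℝ] ℂ := S'.symm with hT
  have hTs : T.symm = S' := rfl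
  -- the pulled back test function
  have hφ : Test (fun x => φ' (T x)) := test_comp_linear hφ' T
  have hφt : tsupport (fun x => φ' (T x)) ⊆ γ.target := by
    refine (tsupport_comp_linear T hφs).trans ?_
    intro x hx
    have h1 : T.symm (T x) ∈ γ.target := hx
    rwa [ContinuousLinearEquiv.symm_apply_apply] at h1
  obtain ⟨g, hg, hgM⟩ := h _ hφ.1 hφ.2 hφt
  have hS'' : ∀ v w, (inner ℝ (S v) w : ℝ) = inner ℝ v (S' w) := by
    intro v w
    rw [real_inner_comm, ← hS', real_inner_comm]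
  have hWG := hg.comp_linear S' S hS''
  refine ⟨_, hWG.congr ?_ (EventuallyEq.refl _ _), ?_⟩
  · refine Eventually.of_forall fun x => ?_
    show γ.source.indicator ((fun x => φ' (T x)) ∘ γ) (S' x) =
      (T.symm ⁻¹' γ.source).indicator (φ' ∘ (cj T γ)) x
    by_cases hx : S' x ∈ γ.source
    · rw [Set.indicator_of_mem hx, Set.indicator_of_mem (show x ∈ T.symm ⁻¹' γ.source from hx)]
      rfl
    · rw [Set.indicator_of_notMem hx,
        Set.indicator_of_notMem (show x ∉ T.symm ⁻¹' γ.source from hx)]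
  · obtain ⟨c, hc, hcov⟩ := exists_cov T
    have e1 : ∫ x, ‖S (g (S' x))‖ ^ 2 = c⁻¹ * En (fun _ => B) g := by
      have := hcov (fun y => ‖S (g (S' y))‖ ^ 2)
      have e2 : ∀ x, ‖S (g (S' (T x)))‖ ^ 2 = inner ℝ (B (g x)) (g x) := by
        intro x
        have : S' (T x) = x := S'.apply_symm_apply x
        rw [this, hS]
      simp only [e2] at this
      rw [En, this]
      field_simp
    have e3 : En (fun _ => B) (∇ (fun x => φ' (T x))) = c * ∫ x, ‖fderiv ℝ φ' x‖ ^ 2 := by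
      rw [← hcov, En]
      refine integral_congr_ae (Eventually.of_forall fun x => ?_)
      simp only
      rw [← hS, ← norm_gradient]
      congr 2
      refine ext_inner_right ℝ fun w => ?_
      rw [hS'', inner_gradient hφ.differentiable, inner_gradient hφ'.differentiable]
      have hd : HasFDerivAt (fun x => φ' (T x)) ((fderiv ℝ φ' (T x)).comp (T : ℂ →L[ℝ] ℂ)) x :=
        (hφ'.differentiable (T x)).hasFDerivAt.comp x T.hasFDerivAt
      rw [hd.fderiv]
      show fderiv ℝ φ' (T x) (T (S' w)) = _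
      have : T (S' w) = w := S'.symm_apply_apply w
      rw [this]
    rw [e1]
    rw [e3] at hgM
    rw [inv_mul_le_iff₀ hc]
    exact hgM

end

end P198C5
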