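import Vale.Agent.P363.R.Sob.S01
import Vale.Agent.P363.R.Sob.S06
import Mathlib.Analysis.Calculus.Gradient.Basic

/-! Weak gradients of real functions on the plane: `WG u g` says that `g = u_x + i u_y` weakly and
`g` is square integrable; `DirLe u M` says that the Dirichlet integral of `u` is at most `M`. -/

namespace P198C5

open MeasureTheory Filter Topology Vale.Agent.P363.R.Sob
open scoped ContDiff ENNReal InnerProductSpace Gradient Convolution

noncomputable section

/-- `g = u_x + i u_y` weakly, and `g ∈ L²`. -/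
def WG (u : ℂ → ℝ) (g : ℂ → ℂ) : Prop :=
  MemLp g 2 volume ∧ ∀ φ : ℂ → ℝ, ContDiff ℝ ∞ φ → HasCompactSupport φ → ∀ v : ℂ,
    ∫ x, u x * fderiv ℝ φ x v = - ∫ x, (inner ℝ (g x) v) * φ x

/-- the Dirichlet integral of `u` is at most `M` -/
def DirLe (u : ℂ → ℝ) (M : ℝ) : Prop := ∃ g, WG u g ∧ ∫ x, ‖g x‖ ^ 2 ≤ M

variable {u u' : ℂ → ℝ} {g g' : ℂ → ℂ} {φ ψ : ℂ → ℝ}

theorem WG.memLp (h : WG u g) : MemLp g 2 volume := h.1

theorem WG.isWD (h : WG u g) (v : ℂ) : IsWD volume v u (fun x => inner ℝ (g x) v) := by
  intro φ hφ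
  have := h.2 φ hφ.1 hφ.2 v
  simp only [smul_eq_mul]
  rw [show (fun x => fderiv ℝ φ x v * u x) = fun x => u x * fderiv ℝ φ x v from by
    funext x; ring, show (fun x => φ x * inner ℝ (g x) v) = fun x => inner ℝ (g x) v * φ x from by
    funext x; ring, this]

theorem WG.of_isWD (hg : MemLp g 2 volume) (h : ∀ v, IsWD volume v u (fun x => inner ℝ (g x) v)) :
    WG u g := by
  refine ⟨hg, fun φ h1 h2 v => ?_⟩
  have := h v φ ⟨h1, h2⟩
  simp only [smul_eq_mul] at this
  rw [show (fun x => u x * fderiv ℝ φ x v) = fun x => fderiv ℝ φ x v * u x from by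
    funext x; ring, show (fun x => inner ℝ (g x) v * φ x) = fun x => φ x * inner ℝ (g x) v from by
    funext x; ring, this]

theorem memLp_inner (hg : MemLp g 2 volume) (v : ℂ) :
    MemLp (fun x => (inner ℝ (g x) v : ℝ)) 2 volume := by
  have h := ((innerSL ℝ v).comp_memLp' hg)
  refine h.ae_eq (Eventually.of_forall fun x => ?_)
  simp only [Function.comp_apply, innerSL_apply_apply]
  exact real_inner_comm _ _

theorem loc_inner (hg : MemLp g 2 volume) (v : ℂ) :
    LocallyIntegrable (fun x => (inner ℝ (g x) v : ℝ)) volume :=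
  (memLp_inner hg v).locallyIntegrable (by norm_num)

theorem inner_one_right (z : ℂ) : (inner ℝ z (1 : ℂ) : ℝ) = z.re := by
  simp [Complex.inner]

theorem inner_I_right (z : ℂ) : (inner ℝ z Complex.I : ℝ) = z.im := by
  simp [Complex.inner]

theorem WG.unique (h : WG u g) (h' : WG u g') : g =ᵐ[volume] g' := by
  have h1 := (h.isWD 1).unique (h'.isWD 1) (loc_inner h.1 _) (loc_inner h'.1 _)
  have h2 := (h.isWD Complex.I).unique (h'.isWD Complex.I) (loc_inner h.1 _) (loc_inner h'.1 _)
  filter_upwards [h1, h2] with x h1 h2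
  rw [inner_one_right, inner_one_right] at h1
  rw [inner_I_right, inner_I_right] at h2
  exact Complex.ext h1 h2

theorem WG.congr (h : WG u g) (hu : u =ᵐ[volume] u') (hg : g =ᵐ[volume] g') : WG u' g' :=
  WG.of_isWD (h.1.ae_eq hg) fun v => (h.isWD v).congr hu
    (hg.mono fun x hx => by simp only [hx])

theorem WG.add (h : WG u g) (h' : WG u' g') (hu : LocallyIntegrable u volume)
    (hu' : LocallyIntegrable u' volume) : WG (fun x => u x + u' x) (fun x => g x + g' x) := by
  refine WG.of_isWD (h.1.add h'.1) fun v => ?_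
  have := (h.isWD v).add (h'.isWD v) hu (loc_inner h.1 _) hu' (loc_inner h'.1 _)
  simpa only [inner_add_left] using this

theorem WG.const_mul (h : WG u g) (c : ℝ) : WG (fun x => c * u x) (fun x => c • g x) := by
  refine WG.of_isWD (h.1.const_smul c) fun v => ?_
  have := (h.isWD v).const_smul c
  simpa only [inner_smul_left, smul_eq_mul, conj_trivial] using this

theorem WG.neg (h : WG u g) : WG (fun x => - u x) (fun x => - g x) := by
  have := h.const_mul (-1)
  simpa using this

theorem WG.sub (h : WG u g) (h' : WG u' g') (hu : LocallyIntegrable u volume)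
    (hu' : LocallyIntegrable u' volume) : WG (fun x => u x - u' x) (fun x => g x - g' x) := by
  simp only [sub_eq_add_neg]
  exact h.add h'.neg hu hu'.neg

/-! ### gradients of smooth functions -/

theorem inner_gradient (hφ : Differentiable ℝ φ) (x v : ℂ) :
    (inner ℝ (∇ φ x) v : ℝ) = fderiv ℝ φ x v := by
  rw [gradient, InnerProductSpace.toDual_symm_apply]

theorem norm_gradient (x : ℂ) : ‖∇ φ x‖ = ‖fderiv ℝ φ x‖ := by
  rw [gradient, LinearIsometryEquiv.norm_map]

theorem continuous_gradient (hφ : ContDiff ℝ 1 φ) : Continuous (∇ φ) := by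
  have h1 : Continuous (fderiv ℝ φ) := hφ.continuous_fderiv (by simp)
  exact (InnerProductSpace.toDual ℝ ℂ).symm.continuous.comp h1

theorem hasCompactSupport_gradient (hφ : HasCompactSupport φ) : HasCompactSupport (∇ φ) := by
  have h1 : HasCompactSupport (fderiv ℝ φ) := hφ.fderiv ℝ
  exact h1.comp_left (g := (InnerProductSpace.toDual ℝ ℂ).symm) (map_zero _)

theorem memLp_gradient (h : Test φ) : MemLp (∇ φ) 2 volume :=
  (continuous_gradient (h.1.of_le (by simp))).memLp_of_hasCompactSupport
    (hasCompactSupport_gradient h.2)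

theorem WG.of_test (h : Test φ) : WG φ (∇ φ) := by
  refine WG.of_isWD (memLp_gradient h) fun v => ?_
  refine isWD_of_differentiable h.continuous (fun x => ?_) (loc_inner (memLp_gradient h) v)
  rw [inner_gradient h.differentiable]
  exact (h.differentiable x).hasFDerivAt.hasLineDerivAt v

theorem loc_of_cont {u : ℂ → ℝ} (h : Continuous u) : LocallyIntegrable u volume :=
  h.locallyIntegrable

/-! ### mollification -/

theorem gradient_moll (ρ : ContDiffBump (0 : ℂ)) (h : WG u g) (hu : LocallyIntegrable u volume)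
    (x : ℂ) : ∇ (moll volume ρ u) x = moll volume ρ g x := by
  have hd : Differentiable ℝ (moll volume ρ u) := (moll_contDiff ρ hu).differentiable (by simp)
  have key : ∀ v : ℂ, (inner ℝ (∇ (moll volume ρ u) x) v : ℝ) = inner ℝ (moll volume ρ g x) v := by
    intro v
    rw [inner_gradient hd, fderiv_moll ρ (h.isWD v) hu x]
    have hg : LocallyIntegrable g volume := h.1.locallyIntegrable (by norm_num)
    have hi : Integrable (fun t => ρ.normed volume t • g (x - t)) volume :=
      (ρ.hasCompactSupport_normed (μ := volume)).convolutionExists_left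
          (ContinuousLinearMap.lsmul ℝ ℝ) ρ.continuous_normed hg x
    rw [moll_apply, moll_apply]
    have h1 := (innerSL ℝ v).integral_comp_comm hi
    simp only [innerSL_apply_apply] at h1
    rw [real_inner_comm, ← h1]
    refine integral_congr_ae (Eventually.of_forall fun t => ?_)
    simp only [smul_eq_mul]
    rw [real_inner_smul_right, real_inner_comm]
  exact ext_inner_right ℝ key

theorem dist_moll_le (ρ : ContDiffBump (0 : ℂ)) {u : ℂ → ℝ} (hu : Continuous u) {ε : ℝ}
    (h : ∀ x y, dist x y < ρ.rOut → dist (u x) (u y) ≤ ε) (x : ℂ) :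
    dist (moll volume ρ u x) (u x) ≤ ε := by
  exact ρ.dist_normed_convolution_le hu.aestronglyMeasurable fun y hy => h y x hy

/-- mollifications of a continuous function with compact support converge uniformly -/
theorem tendsto_moll_unif {u : ℂ → ℝ} (hu : Continuous u) (hc : HasCompactSupport u) {ε : ℝ}
    (hε : 0 < ε) : ∀ᶠ n in atTop, ∀ x, dist (moll volume (stdBump n) u x) (u x) ≤ ε := by
  have huc : UniformContinuous u := hu.uniformContinuous_of_tendsto_cocompact
    (x := 0) (by
      have := hc.is_zero_at_infty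
      exact this)
  obtain ⟨δ, hδ, h⟩ := Metric.uniformContinuous_iff.1 huc ε hε
  have h3 : ∀ᶠ n in atTop, (stdBump n : ContDiffBump (0 : ℂ)).rOut < δ :=
    tendsto_stdBump_rOut.eventually (gt_mem_nhds hδ)
  filter_upwards [h3] with n hn x
  exact dist_moll_le _ hu (fun x y hxy => (h (hxy.trans hn)).le) x

theorem tsupport_moll_subset (ρ : ContDiffBump (0 : ℂ)) {u : ℂ → ℝ} :
    tsupport (moll volume ρ u) ⊆ Metric.cthickening ρ.rOut (tsupport u) := by
  refine closure_minimal ?_ Metric.isClosed_cthickening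
  refine (support_convolution_subset (ContinuousLinearMap.lsmul ℝ ℝ)).trans ?_
  rintro _ ⟨a, ha, b, hb, rfl⟩
  rw [ρ.support_normed_eq] at ha
  refine Metric.mem_cthickening_of_dist_le _ b _ _ (subset_tsupport _ hb) ?_
  have : dist (a + b) b = dist a 0 := by simp
  rw [this]
  exact (Metric.mem_ball.1 ha).le

theorem tsupport_moll_eventually {u : ℂ → ℝ} (hc : HasCompactSupport u) {V : Set ℂ}
    (hV : IsOpen V) (hs : tsupport u ⊆ V) :
    ∀ᶠ n in atTop, tsupport (moll volume (stdBump n) u) ⊆ V := by
  obtain ⟨δ, hδ, h⟩ := IsCompact.exists_cthickening_subset_open hc hV hs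
  have h3 : ∀ᶠ n in atTop, (stdBump n : ContDiffBump (0 : ℂ)).rOut < δ :=
    tendsto_stdBump_rOut.eventually (gt_mem_nhds hδ)
  filter_upwards [h3] with n hn
  exact (tsupport_moll_subset _).trans ((Metric.cthickening_mono hn.le _).trans h)

end

end P198C5
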