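import Vale.Agent.P198.C5.Basic

/-! Weak gradients as elements of the Hilbert space `L²(ℂ; ℂ)`; closedness and weak compactness. -/

namespace P198C5

open MeasureTheory Filter Topology Vale.Agent.P363.R.Sob
open scoped ContDiff ENNReal InnerProductSpace Gradient

noncomputable section

/-- the Hilbert space of square integrable vector fields on the plane -/
abbrev L2C : Type := Lp ℂ 2 (volume : Measure ℂ)

/-- real inner product on `L2C` -/
def ip (F G : L2C) : ℝ := inner ℝ F G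

theorem ip_eq (F G : L2C) : ip F G = ∫ x, (inner ℝ (F x) (G x) : ℝ) := rfl

theorem ip_toLp {f g : ℂ → ℂ} (hf : MemLp f 2 volume) (hg : MemLp g 2 volume) :
    ip (hf.toLp f) (hg.toLp g) = ∫ x, (inner ℝ (f x) (g x) : ℝ) := by
  rw [ip_eq]
  refine integral_congr_ae ?_
  filter_upwards [hf.coeFn_toLp, hg.coeFn_toLp] with x h1 h2
  rw [h1, h2]

theorem ip_self (F : L2C) : ip F F = ‖F‖ ^ 2 := real_inner_self_eq_norm_sq F

theorem ip_comm (F G : L2C) : ip F G = ip G F := real_inner_comm G F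

theorem norm_sq_eq (F : L2C) : ‖F‖ ^ 2 = ∫ x, ‖F x‖ ^ 2 := by
  rw [← ip_self, ip_eq]
  refine integral_congr_ae (Eventually.of_forall fun x => ?_)
  exact real_inner_self_eq_norm_sq (F x)

theorem norm_sq_toLp {f : ℂ → ℂ} (hf : MemLp f 2 volume) :
    ‖hf.toLp f‖ ^ 2 = ∫ x, ‖f x‖ ^ 2 := by
  rw [norm_sq_eq]
  refine integral_congr_ae ?_
  filter_upwards [hf.coeFn_toLp] with x h1
  simp only [h1]

/-- the test vector field `φ v` -/
theorem memLp_tv {φ : ℂ → ℝ} (h : Test φ) (v : ℂ) : MemLp (fun x => φ x • v) 2 volume :=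
  (h.continuous.smul continuous_const).memLp_of_hasCompactSupport h.2.smul_right

/-- the test vector field `φ v` in `L2C` -/
def tv {φ : ℂ → ℝ} (h : Test φ) (v : ℂ) : L2C := (memLp_tv h v).toLp _

theorem ip_tv {φ : ℂ → ℝ} (h : Test φ) (v : ℂ) (G : L2C) :
    ip (tv h v) G = ∫ x, (inner ℝ (G x) v : ℝ) * φ x := by
  rw [ip_eq]
  refine integral_congr_ae ?_
  filter_upwards [(memLp_tv h v).coeFn_toLp] with x h1
  rw [tv, h1, real_inner_smul_left, real_inner_comm, mul_comm]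

theorem WG.toLp {u : ℂ → ℝ} {g : ℂ → ℂ} (h : WG u g) : WG u (h.1.toLp g : L2C) :=
  h.congr (EventuallyEq.refl _ _) h.1.coeFn_toLp.symm

theorem WG.eq {u : ℂ → ℝ} {G G' : L2C} (h : WG u G) (h' : WG u G') : G = G' :=
  Lp.ext (h.unique h')

theorem wg_iff {u : ℂ → ℝ} {G : L2C} : WG u G ↔ ∀ (φ : ℂ → ℝ) (h : Test φ) (v : ℂ),
    ∫ x, u x * fderiv ℝ φ x v = - ip (tv h v) G := by
  constructor
  · intro H φ h v
    rw [ip_tv, H.2 φ h.1 h.2 v]
  · intro H
    refine ⟨Lp.memLp G, fun φ h1 h2 v => ?_⟩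
    have hT : Test φ := ⟨h1, h2⟩
    rw [H φ hT v, ip_tv]

theorem DirLe.exists {u : ℂ → ℝ} {M : ℝ} (h : DirLe u M) : ∃ G : L2C, WG u G ∧ ‖G‖ ^ 2 ≤ M := by
  obtain ⟨g, h1, h2⟩ := h
  exact ⟨_, h1.toLp, by rw [norm_sq_toLp]; exact h2⟩

theorem dirLe_of {u : ℂ → ℝ} {M : ℝ} {G : L2C} (h : WG u G) (h' : ‖G‖ ^ 2 ≤ M) : DirLe u M :=
  ⟨_, h, by rw [← norm_sq_eq]; exact h'⟩

theorem DirLe.mono {u : ℂ → ℝ} {M M' : ℝ} (h : DirLe u M) (h' : M ≤ M') : DirLe u M' := by
  obtain ⟨g, h1, h2⟩ := h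
  exact ⟨g, h1, h2.trans h'⟩

theorem WG.dirLe_iff {u : ℂ → ℝ} {M : ℝ} {G : L2C} (h : WG u G) : DirLe u M ↔ ‖G‖ ^ 2 ≤ M := by
  refine ⟨fun h' => ?_, dirLe_of h⟩
  obtain ⟨G', h1, h2⟩ := h'.exists
  rwa [h.eq h1]

theorem WG.addL {u u' : ℂ → ℝ} {G G' : L2C} (h : WG u G) (h' : WG u' G')
    (hu : LocallyIntegrable u volume) (hu' : LocallyIntegrable u' volume) :
    WG (fun x => u x + u' x) (G + G' : L2C) :=
  (h.add h' hu hu').congr (EventuallyEq.refl _ _) (Lp.coeFn_add G G').symm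

theorem WG.subL {u u' : ℂ → ℝ} {G G' : L2C} (h : WG u G) (h' : WG u' G')
    (hu : LocallyIntegrable u volume) (hu' : LocallyIntegrable u' volume) :
    WG (fun x => u x - u' x) (G - G' : L2C) :=
  (h.sub h' hu hu').congr (EventuallyEq.refl _ _) (Lp.coeFn_sub G G').symm

theorem WG.smulL {u : ℂ → ℝ} {G : L2C} (h : WG u G) (c : ℝ) :
    WG (fun x => c * u x) (c • G : L2C) :=
  (h.const_mul c).congr (EventuallyEq.refl _ _) (Lp.coeFn_smul c G).symm

/-- the gradient of a test function in `L2C` -/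
def gL {φ : ℂ → ℝ} (h : Test φ) : L2C := (memLp_gradient h).toLp _

theorem wg_gL {φ : ℂ → ℝ} (h : Test φ) : WG φ (gL h) := (WG.of_test h).toLp

theorem norm_sq_gL {φ : ℂ → ℝ} (h : Test φ) : ‖gL h‖ ^ 2 = ∫ x, ‖fderiv ℝ φ x‖ ^ 2 := by
  rw [gL, norm_sq_toLp]
  simp only [norm_gradient]

/-! ### closedness -/

/-- weak closedness of the graph of the gradient -/
theorem wg_of_tendsto {ι : Type*} {l : Filter ι} [l.NeBot] {un : ι → ℂ → ℝ} {Gn : ι → L2C}
    {u : ℂ → ℝ} {G : L2C} (h : ∀ᶠ n in l, WG (un n) (Gn n))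
    (hu : ∀ φ, Test φ → Tendsto (fun n => ∫ x, un n x * φ x) l (𝓝 (∫ x, u x * φ x)))
    (hG : ∀ K : L2C, Tendsto (fun n => ip K (Gn n)) l (𝓝 (ip K G))) : WG u G := by
  refine wg_iff.2 fun φ hφ v => ?_
  have t1 := hu _ (hφ.fderiv v)
  have t2 := (hG (tv hφ v)).neg
  refine tendsto_nhds_unique t1 (t2.congr' ?_)
  filter_upwards [h] with n hn
  rw [wg_iff.1 hn φ hφ v]

/-- locally uniform convergence implies distributional convergence -/
theorem distrib_of_locUnif {ι : Type*} {l : Filter ι} {un : ι → ℂ → ℝ} {u : ℂ → ℝ}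
    (hun : ∀ n, LocallyIntegrable (un n) volume) (hu : LocallyIntegrable u volume)
    (h : ∀ K : Set ℂ, IsCompact K → TendstoUniformlyOn un u l K) (φ : ℂ → ℝ) (hφ : Test φ) :
    Tendsto (fun n => ∫ x, un n x * φ x) l (𝓝 (∫ x, u x * φ x)) := by
  have hI : Integrable φ volume := hφ.continuous.integrable_of_hasCompactSupport hφ.2
  set A := ∫ x, ‖φ x‖ with hA
  have hA0 : 0 ≤ A := integral_nonneg fun x => norm_nonneg _
  rw [Metric.tendsto_nhds]
  intro ε hε
  have h1 := (Metric.tendstoUniformlyOn_iff.1 (h _ hφ.2)) (ε / (2 * (A + 1))) (by positivity)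
  filter_upwards [h1] with n hn
  have i1 : Integrable (fun x => un n x * φ x) volume := by
    have := hφ.integrable_smul (hun n)
    simpa [mul_comm] using this
  have i2 : Integrable (fun x => u x * φ x) volume := by
    have := hφ.integrable_smul hu
    simpa [mul_comm] using this
  rw [dist_eq_norm, ← integral_sub i1 i2]
  have hb : ∀ x, ‖un n x * φ x - u x * φ x‖ ≤ ε / (2 * (A + 1)) * ‖φ x‖ := by
    intro x
    rw [← sub_mul, norm_mul]
    by_cases hx : x ∈ tsupport φ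
    · have := hn x hx
      rw [dist_comm, dist_eq_norm] at this
      gcongr
    · rw [image_eq_zero_of_notMem_tsupport hx]
      simp
  calc ‖∫ x, (un n x * φ x - u x * φ x)‖ ≤ ∫ x, ‖un n x * φ x - u x * φ x‖ :=
        norm_integral_le_integral_norm _
    _ ≤ ∫ x, ε / (2 * (A + 1)) * ‖φ x‖ :=
        integral_mono (i1.sub i2).norm (hI.norm.const_mul _) hb
    _ = ε / (2 * (A + 1)) * A := by rw [integral_const_mul]
    _ < ε := by
        rw [div_mul_eq_mul_div, div_lt_iff₀ (by positivity)]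
        nlinarith

theorem tendsto_ip_of_norm {ι : Type*} {l : Filter ι} {Gn : ι → L2C} {G : L2C}
    (h : Tendsto Gn l (𝓝 G)) (K : L2C) : Tendsto (fun n => ip K (Gn n)) l (𝓝 (ip K G)) :=
  Tendsto.inner tendsto_const_nhds h

/-- weak compactness in a Hilbert space, along an ultrafilter -/
theorem exists_weak_lim {H : Type*} [NormedAddCommGroup H] [InnerProductSpace ℝ H]
    [CompleteSpace H] {ι : Type*} (U : Ultrafilter ι) (Gn : ι → H) (C : ℝ)
    (hC : ∀ᶠ n in (U : Filter ι), ‖Gn n‖ ≤ C) :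
    ∃ G : H, (∀ K : H, Tendsto (fun n => (inner ℝ K (Gn n) : ℝ)) U (𝓝 (inner ℝ K G))) ∧
      ∀ m, (∀ᶠ n in (U : Filter ι), ‖Gn n‖ ≤ m) → ‖G‖ ≤ m := by
  have hlim : ∀ K : H, ∃ a : ℝ, Tendsto (fun n => (inner ℝ K (Gn n) : ℝ)) U (𝓝 a) := by
    intro K
    have hb : ∀ᶠ n in (U : Filter ι), (inner ℝ K (Gn n) : ℝ) ∈ Set.Icc (-(‖K‖ * C)) (‖K‖ * C) := by
      filter_upwards [hC] with n hn
      have h1 := abs_real_inner_le_norm K (Gn n)
      have h2 : ‖K‖ * ‖Gn n‖ ≤ ‖K‖ * C := by gcongr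
      exact abs_le.1 (h1.trans h2)
    have hle : ((U.map (fun n => (inner ℝ K (Gn n) : ℝ)) : Ultrafilter ℝ) : Filter ℝ) ≤
        𝓟 (Set.Icc (-(‖K‖ * C)) (‖K‖ * C)) := by
      rw [le_principal_iff]
      exact hb
    obtain ⟨a, -, ha⟩ := isCompact_Icc.ultrafilter_le_nhds _ hle
    exact ⟨a, ha⟩
  choose L hL using hlim
  have hadd : ∀ K K', L (K + K') = L K + L K' := by
    intro K K'
    refine tendsto_nhds_unique (hL (K + K')) ?_
    have := (hL K).add (hL K')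
    simpa only [inner_add_left] using this
  have hsmul : ∀ (c : ℝ) K, L (c • K) = c • L K := by
    intro c K
    refine tendsto_nhds_unique (hL (c • K)) ?_
    have := (hL K).const_mul c
    simpa only [real_inner_smul_left, smul_eq_mul] using this
  have hbound : ∀ m, (∀ᶠ n in (U : Filter ι), ‖Gn n‖ ≤ m) → ∀ K, |L K| ≤ m * ‖K‖ := by
    intro m hm K
    refine le_of_tendsto (hL K).abs ?_
    filter_upwards [hm] with n hn
    have h1 := abs_real_inner_le_norm K (Gn n)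
    have h2 : ‖K‖ * ‖Gn n‖ ≤ ‖K‖ * m := by gcongr
    linarith [mul_comm ‖K‖ m]
  let Llin : H →ₗ[ℝ] ℝ := { toFun := L, map_add' := hadd, map_smul' := hsmul }
  let Lc : H →L[ℝ] ℝ := Llin.mkContinuous C (fun K => by
    rw [Real.norm_eq_abs]; exact hbound C hC K)
  refine ⟨(InnerProductSpace.toDual ℝ H).symm Lc, fun K => ?_, fun m hm => ?_⟩
  · rw [real_inner_comm, InnerProductSpace.toDual_symm_apply]
    exact hL K
  · have hm0 : 0 ≤ m := by
      obtain ⟨n, hn⟩ := hm.exists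
      exact (norm_nonneg _).trans hn
    rw [LinearIsometryEquiv.norm_map]
    refine ContinuousLinearMap.opNorm_le_bound _ hm0 fun K => ?_
    rw [Real.norm_eq_abs]
    exact hbound m hm K

/-- lower semicontinuity of the Dirichlet integral under distributional convergence -/
theorem DirLe.of_tendsto {ι : Type*} {l : Filter ι} [l.NeBot] {un : ι → ℂ → ℝ}
    {u : ℂ → ℝ} {M : ℝ} {Mn : ι → ℝ} (h : ∀ᶠ n in l, DirLe (un n) (Mn n))
    (hM : Tendsto Mn l (𝓝 M))
    (hu : ∀ φ, Test φ → Tendsto (fun n => ∫ x, un n x * φ x) l (𝓝 (∫ x, u x * φ x))) :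
    DirLe u M := by
  classical
  let U := Ultrafilter.of l
  have hUl : (U : Filter ι) ≤ l := Ultrafilter.of_le l
  have hex : ∀ n, ∃ G : L2C, DirLe (un n) (Mn n) → (WG (un n) G ∧ ‖G‖ ^ 2 ≤ Mn n) := by
    intro n
    by_cases hn : DirLe (un n) (Mn n)
    · obtain ⟨G, h1, h2⟩ := hn.exists
      exact ⟨G, fun _ => ⟨h1, h2⟩⟩
    · exact ⟨0, fun hh => absurd hh hn⟩
  choose Gn hGn using hex
  have hbd : ∀ M', M < M' → ∀ᶠ n in (U : Filter ι), ‖Gn n‖ ≤ √M' := by
    intro M' hM'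
    have h1 : ∀ᶠ n in l, Mn n < M' := hM.eventually (gt_mem_nhds hM')
    filter_upwards [hUl (h.and h1)] with n hn
    have h2 := (hGn n hn.1).2
    exact Real.le_sqrt_of_sq_le (h2.trans hn.2.le)
  obtain ⟨G, hG, hm⟩ := exists_weak_lim U Gn (√(M + 1)) (hbd (M + 1) (by linarith))
  have hWG : WG u G := by
    refine wg_of_tendsto (l := (U : Filter ι)) (Gn := Gn) (un := un) ?_
      (fun φ hφ => (hu φ hφ).mono_left hUl) (fun K => hG K)
    filter_upwards [hUl h] with n hn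
    exact (hGn n hn).1
  refine dirLe_of hWG ?_
  have hM0 : 0 ≤ M := by
    refine ge_of_tendsto hM ?_
    filter_upwards [h] with n hn
    exact (sq_nonneg _).trans (hGn n hn).2
  refine le_of_forall_pos_le_add fun ε hε => ?_
  have h2 := hm _ (hbd (M + ε) (by linarith))
  calc ‖G‖ ^ 2 ≤ √(M + ε) ^ 2 := by gcongr
    _ = M + ε := Real.sq_sqrt (by linarith)

end

end P198C5
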