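import Vale.Agent.P198.C5.Weak
import Mathlib.MeasureTheory.Function.ContinuousMapDense

/-! Dirichlet forms with bounded measurable coefficients on the plane: lower semicontinuity of
`D_A(u)` when both the coefficients and the functions converge. -/

namespace P198C5

open MeasureTheory Filter Topology Vale.Agent.P363.R.Sob
open scoped ContDiff ENNReal InnerProductSpace Gradient

noncomputable section

/-- a bounded measurable field of symmetric operators, bounded below by `lam` -/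
structure Fld (lam Lam : ℝ) (A : ℂ → ℂ →L[ℝ] ℂ) : Prop where
  meas : AEStronglyMeasurable A volume
  symm : ∀ x v w, (inner ℝ (A x v) w : ℝ) = inner ℝ v (A x w)
  lower : ∀ x v, lam * ‖v‖ ^ 2 ≤ inner ℝ (A x v) v
  upper : ∀ x, ‖A x‖ ≤ Lam

/-- the energy `∫ ⟨A g, g⟩` -/
def En (A : ℂ → ℂ →L[ℝ] ℂ) (g : ℂ → ℂ) : ℝ := ∫ x, (inner ℝ (A x (g x)) (g x) : ℝ)

/-- `D_A(u) ≤ M` -/
def DLe (A : ℂ → ℂ →L[ℝ] ℂ) (u : ℂ → ℝ) (M : ℝ) : Prop := ∃ g, WG u g ∧ En A g ≤ M

variable {lam Lam : ℝ} {A A' : ℂ → ℂ →L[ℝ] ℂ} {g : ℂ → ℂ}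

theorem Fld.Lam_nonneg (hA : Fld lam Lam A) : 0 ≤ Lam := (norm_nonneg _).trans (hA.upper 0)

theorem meas_apply (hA : AEStronglyMeasurable A volume) (hg : AEStronglyMeasurable g volume) :
    AEStronglyMeasurable (fun x => A x (g x)) volume :=
  (ContinuousLinearMap.id ℝ (ℂ →L[ℝ] ℂ)).aestronglyMeasurable_comp₂ hA hg

theorem Fld.memLp (hA : Fld lam Lam A) (hg : MemLp g 2 volume) :
    MemLp (fun x => A x (g x)) 2 volume :=
  hg.of_le_mul (meas_apply hA.meas hg.1)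
    (Eventually.of_forall fun x => (A x).le_of_opNorm_le (hA.upper x) _)

/-- multiplication by `A` on `L²` -/
def ap (hA : Fld lam Lam A) : L2C →L[ℝ] L2C :=
  LinearMap.mkContinuous
    { toFun := fun G => (hA.memLp (Lp.memLp G)).toLp _
      map_add' := by
        intro G K
        apply Lp.ext
        filter_upwards [(hA.memLp (Lp.memLp (G + K))).coeFn_toLp,
          (hA.memLp (Lp.memLp G)).coeFn_toLp, (hA.memLp (Lp.memLp K)).coeFn_toLp,
          Lp.coeFn_add G K, Lp.coeFn_add ((hA.memLp (Lp.memLp G)).toLp _)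
            ((hA.memLp (Lp.memLp K)).toLp _)] with x h1 h2 h3 h4 h5
        rw [h1, h5, Pi.add_apply, h2, h3, h4, Pi.add_apply, map_add]
      map_smul' := by
        intro c G
        apply Lp.ext
        filter_upwards [(hA.memLp (Lp.memLp (c • G))).coeFn_toLp,
          (hA.memLp (Lp.memLp G)).coeFn_toLp,
          Lp.coeFn_smul c G, Lp.coeFn_smul c ((hA.memLp (Lp.memLp G)).toLp _)] with x h1 h2 h4 h5
        rw [h1, RingHom.id_apply, h5, Pi.smul_apply, h2, h4, Pi.smul_apply, map_smul] }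
    Lam (by
      intro G
      simp only [LinearMap.coe_mk, AddHom.coe_mk]
      refine Lp.norm_le_mul_norm_of_ae_le_mul ?_
      filter_upwards [(hA.memLp (Lp.memLp G)).coeFn_toLp] with x h1
      rw [h1]
      exact (A x).le_of_opNorm_le (hA.upper x) _)

theorem ap_coe (hA : Fld lam Lam A) (G : L2C) : ap hA G =ᵐ[volume] fun x => A x (G x) :=
  (hA.memLp (Lp.memLp G)).coeFn_toLp

theorem norm_ap_le (hA : Fld lam Lam A) (G : L2C) : ‖ap hA G‖ ≤ Lam * ‖G‖ :=
  (ap hA).le_of_opNorm_le (LinearMap.mkContinuous_norm_le _ hA.Lam_nonneg _) G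

theorem ip_ap (hA : Fld lam Lam A) (G K : L2C) :
    ip (ap hA G) K = ∫ x, (inner ℝ (A x (G x)) (K x) : ℝ) := by
  rw [ip_eq]
  refine integral_congr_ae ?_
  filter_upwards [ap_coe hA G] with x h1
  rw [h1]

theorem En_coe (hA : Fld lam Lam A) (G : L2C) : En A G = ip (ap hA G) G := (ip_ap hA G G).symm

theorem ap_symm (hA : Fld lam Lam A) (G K : L2C) : ip (ap hA G) K = ip G (ap hA K) := by
  rw [ip_ap, ip_eq]
  refine integral_congr_ae ?_
  filter_upwards [ap_coe hA K] with x h1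
  rw [h1, hA.symm]

theorem ap_lower (hA : Fld lam Lam A) (G : L2C) : lam * ‖G‖ ^ 2 ≤ ip (ap hA G) G := by
  rw [norm_sq_eq, ip_ap, ← integral_const_mul]
  have i1 : Integrable (fun x => ‖G x‖ ^ 2) volume := by
    have := (Lp.memLp G).integrable_norm_rpow (by norm_num) (by norm_num)
    simpa using this
  have i2 : Integrable (fun x => (inner ℝ (A x (G x)) (G x) : ℝ)) volume := by
    have := L2.integrable_inner (𝕜 := ℝ) (ap hA G) G
    refine this.congr ?_
    filter_upwards [ap_coe hA G] with x h1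
    rw [h1]
  exact integral_mono (i1.const_mul _) i2 fun x => hA.lower x _

theorem En_congr {g g' : ℂ → ℂ} (h : g =ᵐ[volume] g') : En A g = En A g' :=
  integral_congr_ae (h.mono fun x hx => by simp only [hx])

theorem DLe.exists {u : ℂ → ℝ} {M : ℝ} (h : DLe A u M) : ∃ G : L2C, WG u G ∧ En A G ≤ M := by
  obtain ⟨g, h1, h2⟩ := h
  exact ⟨_, h1.toLp, by rw [En_congr h1.1.coeFn_toLp]; exact h2⟩

theorem DLe.mono {u : ℂ → ℝ} {M M' : ℝ} (h : DLe A u M) (h' : M ≤ M') : DLe A u M' := by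
  obtain ⟨g, h1, h2⟩ := h
  exact ⟨g, h1, h2.trans h'⟩

theorem WG.dLe_iff {u : ℂ → ℝ} {M : ℝ} {g : ℂ → ℂ} (h : WG u g) : DLe A u M ↔ En A g ≤ M := by
  refine ⟨fun h' => ?_, fun h' => ⟨g, h, h'⟩⟩
  obtain ⟨G', h1, h2⟩ := h'
  rwa [En_congr (h.unique h1)]

/-! ### strong convergence of the multiplication operators -/

variable {ι : Type*} {l : Filter ι}

theorem tendsto_ap_cc {An : ι → ℂ → ℂ →L[ℝ] ℂ} {A0 : ℂ → ℂ →L[ℝ] ℂ}
    (hA : ∀ n, Fld lam Lam (An n)) (hA0 : Fld lam Lam A0)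
    (hconv : ∀ R : ℝ, Tendsto (fun n => ∫ x in Metric.ball (0:ℂ) R, ‖An n x - A0 x‖) l (𝓝 0))
    {k : ℂ → ℂ} (hk : Continuous k) (hc : HasCompactSupport k) (hkm : MemLp k 2 volume) :
    Tendsto (fun n => ap (hA n) (hkm.toLp k)) l (𝓝 (ap hA0 (hkm.toLp k))) := by
  obtain ⟨R, hR⟩ : ∃ R : ℝ, tsupport k ⊆ Metric.ball (0:ℂ) R := by
    obtain ⟨R, hR⟩ := hc.isBounded.subset_ball (0:ℂ)
    exact ⟨R, hR⟩
  obtain ⟨C, hC⟩ := hk.bounded_above_of_compact_support hc
  have hC0 : 0 ≤ C := (norm_nonneg _).trans (hC 0)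
  have hL := hA0.Lam_nonneg
  have hbd : ∀ n, ‖ap (hA n) (hkm.toLp k) - ap hA0 (hkm.toLp k)‖ ^ 2 ≤
      (C ^ 2 * (2 * Lam)) * ∫ x in Metric.ball (0:ℂ) R, ‖An n x - A0 x‖ := by
    intro n
    rw [norm_sq_eq, ← integral_const_mul, ← integral_indicator measurableSet_ball]
    have hm : AEStronglyMeasurable (fun x => An n x - A0 x) volume := (hA n).meas.sub hA0.meas
    have hb : ∀ x, ‖An n x - A0 x‖ ≤ 2 * Lam := fun x =>
      (norm_sub_le _ _).trans (by linarith [(hA n).upper x, hA0.upper x])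
    refine integral_mono_ae ?_ ?_ ?_
    · have := (Lp.memLp (ap (hA n) (hkm.toLp k) - ap hA0 (hkm.toLp k))).integrable_norm_rpow
        (by norm_num) (by norm_num)
      simpa using this
    · rw [integrable_indicator_iff measurableSet_ball]
      refine Integrable.const_mul ?_ _
      exact Measure.integrableOn_of_bounded (M := 2 * Lam) measure_ball_lt_top.ne hm.norm
        (Eventually.of_forall fun x => by rw [norm_norm]; exact hb x)
    · filter_upwards [Lp.coeFn_sub (ap (hA n) (hkm.toLp k)) (ap hA0 (hkm.toLp k)),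
        ap_coe (hA n) (hkm.toLp k), ap_coe hA0 (hkm.toLp k), hkm.coeFn_toLp] with x h1 h2 h3 h4
      rw [h1, Pi.sub_apply, h2, h3, h4]
      by_cases hx : x ∈ Metric.ball (0:ℂ) R
      · rw [Set.indicator_of_mem hx]
        have e1 : ‖An n x (k x) - A0 x (k x)‖ ≤ ‖An n x - A0 x‖ * C := by
          have := (An n x - A0 x).le_opNorm (k x)
          rw [sub_apply] at this
          exact this.trans (by gcongr; exact hC x)
        have e2 := hb x
        have e3 := norm_nonneg (An n x - A0 x)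
        calc ‖An n x (k x) - A0 x (k x)‖ ^ 2 ≤ (‖An n x - A0 x‖ * C) ^ 2 := by gcongr
          _ = C ^ 2 * (‖An n x - A0 x‖ * ‖An n x - A0 x‖) := by ring
          _ ≤ C ^ 2 * (2 * Lam * ‖An n x - A0 x‖) := by gcongr
          _ = C ^ 2 * (2 * Lam) * ‖An n x - A0 x‖ := by ring
      · rw [Set.indicator_of_notMem hx]
        have : k x = 0 := image_eq_zero_of_notMem_tsupport fun h' => hx (hR h')
        rw [this]; simp
  rw [tendsto_iff_norm_sub_tendsto_zero]
  have h1 : Tendsto (fun n => ‖ap (hA n) (hkm.toLp k) - ap hA0 (hkm.toLp k)‖ ^ 2) l (𝓝 0) := by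
    have h2 := (hconv R).const_mul (C ^ 2 * (2 * Lam))
    rw [mul_zero] at h2
    exact squeeze_zero (fun n => sq_nonneg _) hbd h2
  have h3 := h1.sqrt
  simpa using h3

theorem tendsto_ap {An : ι → ℂ → ℂ →L[ℝ] ℂ} {A0 : ℂ → ℂ →L[ℝ] ℂ}
    (hA : ∀ n, Fld lam Lam (An n)) (hA0 : Fld lam Lam A0)
    (hconv : ∀ R : ℝ, Tendsto (fun n => ∫ x in Metric.ball (0:ℂ) R, ‖An n x - A0 x‖) l (𝓝 0))
    (G : L2C) : Tendsto (fun n => ap (hA n) G) l (𝓝 (ap hA0 G)) := by
  have hL := hA0.Lam_nonneg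
  rw [Metric.tendsto_nhds]
  intro ε hε
  set δ : ℝ := ε / (4 * (Lam + 1)) with hδ
  have hδ0 : 0 < δ := by positivity
  obtain ⟨k, hc, hk1, hk, hkm⟩ := (Lp.memLp G).exists_hasCompactSupport_eLpNorm_sub_le
    (by norm_num) (ε := ENNReal.ofReal δ) (by simpa using hδ0)
  have hGk : ‖G - hkm.toLp k‖ ≤ δ := by
    rw [Lp.norm_def]
    refine ENNReal.toReal_le_of_le_ofReal hδ0.le ?_
    refine le_trans (le_of_eq ?_) hk1
    apply eLpNorm_congr_ae
    filter_upwards [Lp.coeFn_sub G (hkm.toLp k), hkm.coeFn_toLp] with x h1 h2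
    rw [h1, Pi.sub_apply, Pi.sub_apply, h2]
  have h1 := Metric.tendsto_nhds.1 (tendsto_ap_cc hA hA0 hconv hk hc hkm) (ε / 2) (by positivity)
  filter_upwards [h1] with n hn
  rw [dist_eq_norm] at hn ⊢
  have e : ap (hA n) G - ap hA0 G = ap (hA n) (G - hkm.toLp k) - ap hA0 (G - hkm.toLp k) +
      (ap (hA n) (hkm.toLp k) - ap hA0 (hkm.toLp k)) := by
    rw [map_sub, map_sub]; abel
  rw [e]
  have b1 := norm_ap_le (hA n) (G - hkm.toLp k)
  have b2 := norm_ap_le hA0 (G - hkm.toLp k)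
  have b3 : Lam * ‖G - hkm.toLp k‖ ≤ Lam * δ := by gcongr
  have b4 : Lam * δ ≤ ε / 4 := by
    rw [hδ, mul_div_assoc', div_le_div_iff₀ (by positivity) (by norm_num)]
    nlinarith
  calc _ ≤ ‖ap (hA n) (G - hkm.toLp k)‖ + ‖ap hA0 (G - hkm.toLp k)‖ +
        ‖ap (hA n) (hkm.toLp k) - ap hA0 (hkm.toLp k)‖ :=
        (norm_add_le _ _).trans (by gcongr; exact norm_sub_le _ _)
    _ < ε := by linarith

/-- **Lower semicontinuity** of Dirichlet forms with variable coefficients: if `A_n → A_0` locally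
in `L¹` with uniform bounds, `D_{A_n}(u_n) ≤ M_n → M` and `u_n → u` as distributions then
`D_{A_0}(u) ≤ M`. -/
theorem DLe.of_tendsto [l.NeBot] (hlam : 0 < lam) {An : ι → ℂ → ℂ →L[ℝ] ℂ}
    {A0 : ℂ → ℂ →L[ℝ] ℂ} (hA : ∀ n, Fld lam Lam (An n)) (hA0 : Fld lam Lam A0)
    (hconv : ∀ R : ℝ, Tendsto (fun n => ∫ x in Metric.ball (0:ℂ) R, ‖An n x - A0 x‖) l (𝓝 0))
    {un : ι → ℂ → ℝ} {u : ℂ → ℝ} {M : ℝ} {Mn : ι → ℝ}
    (h : ∀ᶠ n in l, DLe (An n) (un n) (Mn n)) (hM : Tendsto Mn l (𝓝 M))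
    (hu : ∀ φ, Test φ → Tendsto (fun n => ∫ x, un n x * φ x) l (𝓝 (∫ x, u x * φ x))) :
    DLe A0 u M := by
  classical
  let U := Ultrafilter.of l
  have hUl : (U : Filter ι) ≤ l := Ultrafilter.of_le l
  have hex : ∀ n, ∃ G : L2C, DLe (An n) (un n) (Mn n) → (WG (un n) G ∧ En (An n) G ≤ Mn n) := by
    intro n
    by_cases hn : DLe (An n) (un n) (Mn n)
    · obtain ⟨G, h1, h2⟩ := hn.exists
      exact ⟨G, fun _ => ⟨h1, h2⟩⟩
    · exact ⟨0, fun hh => absurd hh hn⟩
  choose Gn hGn using hex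
  have hbd : ∀ᶠ n in (U : Filter ι), ‖Gn n‖ ≤ √((M + 1) / lam) := by
    have h1 : ∀ᶠ n in l, Mn n < M + 1 := hM.eventually (gt_mem_nhds (by linarith))
    filter_upwards [hUl (h.and h1)] with n hn
    have h2 := (hGn n hn.1).2
    rw [En_coe (hA n)] at h2
    have h3 := ap_lower (hA n) (Gn n)
    refine Real.le_sqrt_of_sq_le ?_
    rw [le_div_iff₀ hlam]
    linarith [hn.2, mul_comm lam (‖Gn n‖ ^ 2)]
  obtain ⟨G, hG, -⟩ := exists_weak_lim U Gn _ hbd
  have hWG : WG u G := by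
    refine wg_of_tendsto (l := (U : Filter ι)) (Gn := Gn) (un := un) ?_
      (fun φ hφ => (hu φ hφ).mono_left hUl) (fun K => hG K)
    filter_upwards [hUl h] with n hn
    exact (hGn n hn).1
  refine ⟨G, hWG, ?_⟩
  have hstr : Tendsto (fun n => ap (hA n) G) (U : Filter ι) (𝓝 (ap hA0 G)) :=
    (tendsto_ap hA hA0 hconv G).mono_left hUl
  -- the lower bound
  have hlow : ∀ᶠ n in (U : Filter ι), 2 * ip (ap (hA n) G) (Gn n) - ip (ap (hA n) G) G ≤ Mn n := by
    filter_upwards [hUl h] with n hn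
    have h2 := (hGn n hn).2
    rw [En_coe (hA n)] at h2
    refine le_trans ?_ h2
    have h3 := ap_lower (hA n) (Gn n - G)
    have h4 : 0 ≤ ip (ap (hA n) (Gn n - G)) (Gn n - G) :=
      le_trans (mul_nonneg hlam.le (sq_nonneg _)) h3
    have h5 : ip (ap (hA n) (Gn n - G)) (Gn n - G) = ip (ap (hA n) (Gn n)) (Gn n) -
        ip (ap (hA n) (Gn n)) G - ip (ap (hA n) G) (Gn n) + ip (ap (hA n) G) G := by
      rw [map_sub]
      simp only [ip, inner_sub_left, inner_sub_right]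
      ring
    have h6 : ip (ap (hA n) (Gn n)) G = ip (ap (hA n) G) (Gn n) := by
      rw [ap_symm, ip_comm]
    rw [h5, h6] at h4
    linarith
  -- the limit of the lower bound
  have hcross : Tendsto (fun n => ip (ap (hA n) G) (Gn n)) (U : Filter ι)
      (𝓝 (ip (ap hA0 G) G)) := by
    have t1 := hG (ap hA0 G)
    have t2 : Tendsto (fun n => ip (ap (hA n) G - ap hA0 G) (Gn n)) (U : Filter ι) (𝓝 0) := by
      have h7 : Tendsto (fun n => ‖ap (hA n) G - ap hA0 G‖ * √((M + 1) / lam)) (U : Filter ι)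
          (𝓝 0) := by
        have := (tendsto_iff_norm_sub_tendsto_zero.1 hstr).mul_const (√((M + 1) / lam))
        simpa using this
      refine squeeze_zero_norm' ?_ h7
      filter_upwards [hbd] with n hn
      have h8 := abs_real_inner_le_norm (ap (hA n) G - ap hA0 G) (Gn n)
      rw [Real.norm_eq_abs]
      refine h8.trans ?_
      gcongr
    have t3 := t1.add t2
    rw [add_zero] at t3
    refine t3.congr fun n => ?_
    show ip (ap hA0 G) (Gn n) + ip (ap (hA n) G - ap hA0 G) (Gn n) = _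
    simp only [ip, inner_sub_left]
    ring
  have hself : Tendsto (fun n => ip (ap (hA n) G) G) (U : Filter ι) (𝓝 (ip (ap hA0 G) G)) :=
    Tendsto.inner hstr tendsto_const_nhds
  have hfin := (hcross.const_mul 2).sub hself
  have := le_of_tendsto_of_tendsto hfin (hM.mono_left hUl) hlow
  rw [En_coe hA0]
  linarith

/-- convergence of the energies of a fixed vector field -/
theorem tendsto_En {An : ι → ℂ → ℂ →L[ℝ] ℂ} {A0 : ℂ → ℂ →L[ℝ] ℂ}
    (hA : ∀ n, Fld lam Lam (An n)) (hA0 : Fld lam Lam A0)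
    (hconv : ∀ R : ℝ, Tendsto (fun n => ∫ x in Metric.ball (0:ℂ) R, ‖An n x - A0 x‖) l (𝓝 0))
    {g : ℂ → ℂ} (hg : MemLp g 2 volume) :
    Tendsto (fun n => En (An n) g) l (𝓝 (En A0 g)) := by
  have h := tendsto_ap hA hA0 hconv (hg.toLp g)
  have h1 : Tendsto (fun n => ip (ap (hA n) (hg.toLp g)) (hg.toLp g)) l
      (𝓝 (ip (ap hA0 (hg.toLp g)) (hg.toLp g))) := Tendsto.inner h tendsto_const_nhds
  rw [← En_congr (A := A0) hg.coeFn_toLp, En_coe hA0]
  refine h1.congr fun n => ?_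
  rw [← En_congr (A := An n) hg.coeFn_toLp, En_coe (hA n)]

end

end P198C5
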