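import Vale.Agent.P198.C5.Hilb
import Vale.Agent.P363.R.Sob.S14
import Mathlib.Analysis.InnerProductSpace.Laplacian

/-! A homeomorphism between plane open sets which does not increase Dirichlet integrals of test
functions, in both directions, pulls back harmonic functions to weakly harmonic functions. -/

namespace P198C5

open MeasureTheory Filter Topology Vale.Agent.P363.R.Sob
open scoped ContDiff ENNReal InnerProductSpace Gradient Laplacian

noncomputable section

/-! ### transport of functions by a partial homeomorphism -/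

/-- the function `f ∘ γ` on the source of `γ`, extended by zero -/
def tr (γ : OpenPartialHomeomorph ℂ ℂ) (f : ℂ → ℝ) : ℂ → ℝ := γ.source.indicator (f ∘ γ)

/-- continuous with compact support in `V` -/
structure CC (V : Set ℂ) (f : ℂ → ℝ) : Prop where
  cont : Continuous f
  supp : HasCompactSupport f
  sub : tsupport f ⊆ V

variable {γ : OpenPartialHomeomorph ℂ ℂ} {f g : ℂ → ℝ}

theorem tr_mem {x : ℂ} (hx : x ∈ γ.source) : tr γ f x = f (γ x) := by
  rw [tr, Set.indicator_of_mem hx]; rfl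

theorem tr_notMem {x : ℂ} (hx : x ∉ γ.source) : tr γ f x = 0 := Set.indicator_of_notMem hx _

theorem CC.zero_of_notMem {V : Set ℂ} (h : CC V f) {x : ℂ} (hx : x ∉ V) : f x = 0 :=
  image_eq_zero_of_notMem_tsupport fun hx' => hx (h.sub hx')

theorem CC.loc {V : Set ℂ} (h : CC V f) : LocallyIntegrable f volume := h.cont.locallyIntegrable

theorem CC.isCompact_image (h : CC γ.target f) : IsCompact (γ.symm '' tsupport f) :=
  IsCompact.image_of_continuousOn h.supp (γ.continuousOn_symm.mono h.sub)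

theorem CC.tr_zero_of_notMem (h : CC γ.target f) {x : ℂ} (hx : x ∉ γ.symm '' tsupport f) :
    tr γ f x = 0 := by
  by_cases hs : x ∈ γ.source
  · rw [tr_mem hs]
    refine image_eq_zero_of_notMem_tsupport fun h' => hx ?_
    exact ⟨γ x, h', γ.left_inv hs⟩
  · exact tr_notMem hs

theorem CC.image_subset (h : CC γ.target f) : γ.symm '' tsupport f ⊆ γ.source := by
  rintro _ ⟨y, hy, rfl⟩
  exact γ.map_target (h.sub hy)

theorem CC.tsupport_tr (h : CC γ.target f) : tsupport (tr γ f) ⊆ γ.symm '' tsupport f := by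
  refine closure_minimal (fun x hx => ?_) h.isCompact_image.isClosed
  by_contra hn
  exact hx (h.tr_zero_of_notMem hn)

theorem CC.tr (h : CC γ.target f) : CC γ.source (tr γ f) := by
  refine ⟨?_, ?_, h.tsupport_tr.trans h.image_subset⟩
  · rw [continuous_iff_continuousAt]
    intro x
    by_cases hx : x ∈ γ.source
    · have h1 : ContinuousAt (f ∘ γ) x := h.cont.continuousAt.comp (γ.continuousAt hx)
      refine h1.congr ?_
      filter_upwards [γ.open_source.mem_nhds hx] with y hy
      exact (tr_mem hy).symm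
    · have hK : (γ.symm '' tsupport f)ᶜ ∈ 𝓝 x :=
        h.isCompact_image.isClosed.isOpen_compl.mem_nhds fun hx' => hx (h.image_subset hx')
      have h1 : ContinuousAt (fun _ : ℂ => (0 : ℝ)) x := continuousAt_const
      refine h1.congr ?_
      filter_upwards [hK] with y hy
      exact (h.tr_zero_of_notMem hy).symm
  · exact HasCompactSupport.of_support_subset_isCompact h.isCompact_image
      ((subset_tsupport _).trans h.tsupport_tr)

theorem CC.tr_tr_symm {f : ℂ → ℝ} (h : CC γ.source f) : P198C5.tr γ (P198C5.tr γ.symm f) = f := by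
  funext x
  by_cases hx : x ∈ γ.source
  · rw [tr_mem hx, tr_mem (γ := γ.symm) (γ.map_source hx)]
    have h1 : γ.symm (γ x) = x := γ.left_inv hx
    rw [h1]
  · rw [tr_notMem hx, h.zero_of_notMem hx]

theorem tr_add (x : ℂ) : tr γ (fun y => f y + g y) x = tr γ f x + tr γ g x := by
  by_cases hx : x ∈ γ.source
  · simp only [tr_mem hx]
  · simp [tr_notMem hx]

theorem tr_const_mul (c : ℝ) (x : ℂ) : tr γ (fun y => c * f y) x = c * tr γ f x := by
  by_cases hx : x ∈ γ.source
  · simp only [tr_mem hx]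
  · simp [tr_notMem hx]

theorem dist_tr_le {ε : ℝ} (hε : 0 ≤ ε) (h : ∀ y, dist (f y) (g y) ≤ ε) (x : ℂ) :
    dist (tr γ f x) (tr γ g x) ≤ ε := by
  by_cases hx : x ∈ γ.source
  · simp only [tr_mem hx]; exact h _
  · simp [tr_notMem hx, hε]

/-! ### the Laplacian -/

theorem laplacian_apply {ξ : ℂ → ℝ} (hξ : ContDiff ℝ 2 ξ) (x : ℂ) :
    (Δ ξ) x = fderiv ℝ (fun y => fderiv ℝ ξ y 1) x 1 +
      fderiv ℝ (fun y => fderiv ℝ ξ y Complex.I) x Complex.I := by
  rw [InnerProductSpace.laplacian_eq_iteratedFDeriv_complexPlane]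
  have hd : DifferentiableAt ℝ (fderiv ℝ ξ) x :=
    ((hξ.fderiv_right (m := 1) (by norm_num)).differentiable (by simp)) x
  have e : ∀ v w : ℂ, fderiv ℝ (fun y => fderiv ℝ ξ y v) x w = fderiv ℝ (fderiv ℝ ξ) x w v := by
    intro v w
    have h1 : HasFDerivAt (fun y => fderiv ℝ ξ y v)
        ((fderiv ℝ (fderiv ℝ ξ) x).flip v) x := by
      have := hd.hasFDerivAt.clm_apply (hasFDerivAt_const v x)
      refine this.congr_fderiv ?_
      ext w
      simp
    rw [h1.fderiv]; rfl
  simp only [iteratedFDeriv_two_apply, e]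
  rfl

theorem gradient_eq {ξ : ℂ → ℝ} (hξ : Differentiable ℝ ξ) (x : ℂ) :
    ∇ ξ x = (fderiv ℝ ξ x 1) • (1 : ℂ) + (fderiv ℝ ξ x Complex.I) • Complex.I := by
  have h1 := inner_gradient hξ x 1
  have h2 := inner_gradient hξ x Complex.I
  rw [inner_one_right] at h1
  rw [inner_I_right] at h2
  apply Complex.ext
  · simp [h1]
  · simp [h2]

theorem gL_eq {ξ : ℂ → ℝ} (h : Test ξ) :
    gL h = tv (h.fderiv 1) 1 + tv (h.fderiv Complex.I) Complex.I := by
  apply Lp.ext
  filter_upwards [(memLp_gradient h).coeFn_toLp, (memLp_tv (h.fderiv 1) 1).coeFn_toLp,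
    (memLp_tv (h.fderiv Complex.I) Complex.I).coeFn_toLp,
    Lp.coeFn_add (tv (h.fderiv 1) 1) (tv (h.fderiv Complex.I) Complex.I)] with x h1 h2 h3 h4
  rw [h4, gL, h1]
  simp only [Pi.add_apply]
  rw [tv, tv, h2, h3]
  exact gradient_eq h.differentiable x

/-- integration by parts against a smooth function -/
theorem WG.ip_gL {u : ℂ → ℝ} {G : L2C} (hG : WG u G) (hu : LocallyIntegrable u volume)
    {ξ : ℂ → ℝ} (h : Test ξ) : ip (gL h) G = - ∫ x, u x * (Δ ξ) x := by
  have h1 := wg_iff.1 hG _ (h.fderiv 1) 1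
  have h2 := wg_iff.1 hG _ (h.fderiv Complex.I) Complex.I
  have e : ip (gL h) G = ip (tv (h.fderiv 1) 1) G + ip (tv (h.fderiv Complex.I) Complex.I) G := by
    rw [gL_eq]
    exact inner_add_left _ _ _
  have i1 : Integrable (fun x => u x * fderiv ℝ (fun y => fderiv ℝ ξ y 1) x 1) volume := by
    have := ((h.fderiv 1).fderiv 1).integrable_smul hu
    simpa only [smul_eq_mul, mul_comm] using this
  have i2 : Integrable (fun x => u x * fderiv ℝ (fun y => fderiv ℝ ξ y Complex.I) x Complex.I)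
      volume := by
    have := ((h.fderiv Complex.I).fderiv Complex.I).integrable_smul hu
    simpa only [smul_eq_mul, mul_comm] using this
  have e2 : ∫ x, u x * (Δ ξ) x = (∫ x, u x * fderiv ℝ (fun y => fderiv ℝ ξ y 1) x 1) +
      ∫ x, u x * fderiv ℝ (fun y => fderiv ℝ ξ y Complex.I) x Complex.I := by
    rw [← integral_add i1 i2]
    refine integral_congr_ae (Eventually.of_forall fun x => ?_)
    simp only
    rw [laplacian_apply (h.1.of_le (by norm_cast)) x, mul_add]
  rw [e, e2, h1, h2]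
  ring

/-! ### the main argument -/

theorem cc_of_test {V : Set ℂ} {f : ℂ → ℝ} (h : Test f) (hs : tsupport f ⊆ V) : CC V f :=
  ⟨h.continuous, h.2, hs⟩

theorem test_add_mul {f g : ℂ → ℝ} (hf : Test f) (hg : Test g) (c : ℝ) :
    Test (fun x => f x + c * g x) :=
  ⟨hf.1.add (contDiff_const.mul hg.1), hf.2.add (hg.2.mul_left (f := fun _ => c))⟩

theorem tsupport_add_mul {V : Set ℂ} {f g : ℂ → ℝ} (hf : tsupport f ⊆ V) (hg : tsupport g ⊆ V)
    (c : ℝ) : tsupport (fun x => f x + c * g x) ⊆ V := by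
  have h1 : tsupport (fun x => f x + c * g x) ⊆ tsupport f ∪ tsupport g := by
    refine closure_minimal (fun x hx => ?_)
      ((isClosed_tsupport f).union (isClosed_tsupport g))
    by_contra hn
    rw [Set.mem_union, not_or] at hn
    apply hx
    simp only
    rw [image_eq_zero_of_notMem_tsupport hn.1, image_eq_zero_of_notMem_tsupport hn.2]
    simp
  exact h1.trans (Set.union_subset hf hg)

/-- the gradients of the mollifications converge in `L²` -/
theorem tendsto_gL_moll {w : ℂ → ℝ} {h : L2C} (hw : WG w h) (hc : Continuous w)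
    (hT : ∀ n, Test (moll volume (stdBump n) w)) :
    Tendsto (fun n => gL (hT n)) atTop (𝓝 h) := by
  have h1 := tendsto_moll_std (μ := (volume : Measure ℂ)) (p := 2) (by norm_num) hw.1
  rw [tendsto_iff_edist_tendsto_0]
  refine h1.congr fun n => ?_
  rw [Lp.edist_def]
  apply eLpNorm_congr_ae
  filter_upwards [(memLp_gradient (hT n)).coeFn_toLp] with x h2
  simp only [Pi.sub_apply]
  rw [gL, h2, gradient_moll _ hw hc.locallyIntegrable]

/-- hypothesis: `γ` does not increase Dirichlet integrals of test functions -/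
def Contr (γ : OpenPartialHomeomorph ℂ ℂ) : Prop :=
  ∀ φ : ℂ → ℝ, ContDiff ℝ ∞ φ → HasCompactSupport φ → tsupport φ ⊆ γ.target →
    DirLe (γ.source.indicator (φ ∘ γ)) (∫ x, ‖fderiv ℝ φ x‖ ^ 2)

theorem linear_of_quadratic {a b c : ℝ} (h : ∀ t : ℝ, 2 * t * a ≤ 2 * t * b + t ^ 2 * c) :
    a = b := by
  by_contra hne
  set d := a - b with hd
  have hd0 : d ≠ 0 := sub_ne_zero.2 hne
  have h' : ∀ t : ℝ, 2 * t * d ≤ t ^ 2 * c := by
    intro t
    have := h t
    rw [hd]; linarith
  have h1 := h' (d / (|c| + 1))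
  have hc : 0 < |c| + 1 := by positivity
  have h2 : c ≤ |c| := le_abs_self c
  have h3 : 2 * (d / (|c| + 1)) * d = 2 * (d ^ 2 / (|c| + 1)) := by ring
  have h4 : (d / (|c| + 1)) ^ 2 * c = (d ^ 2 / (|c| + 1)) * (c / (|c| + 1)) := by
    field_simp
  rw [h3, h4] at h1
  have h5 : 0 < d ^ 2 / (|c| + 1) := by positivity
  have h6 : c / (|c| + 1) ≤ 1 := by
    rw [div_le_one hc]; linarith
  nlinarith

/-- The key identity: `∫ (χ ∘ γ) Δξ = ∫ (ξ ∘ γ⁻¹) Δχ`. -/
theorem key_identity (h1 : Contr γ) (h2 : Contr γ.symm) {ξ χ : ℂ → ℝ} (hξ : Test ξ)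
    (sξ : tsupport ξ ⊆ γ.source) (hχ : Test χ) (sχ : tsupport χ ⊆ γ.target) :
    ∫ x, tr γ χ x * (Δ ξ) x = ∫ x, tr γ.symm ξ x * (Δ χ) x := by
  set w := tr γ.symm ξ with hw
  have hcc : CC γ.target w := CC.tr (γ := γ.symm) (cc_of_test hξ sξ)
  obtain ⟨h, hh, hhn⟩ := (h2 ξ hξ.1 hξ.2 sξ).exists
  have hh : WG w h := hh
  rw [← norm_sq_gL hξ] at hhn
  obtain ⟨G, hG, hGn⟩ := (h1 χ hχ.1 hχ.2 sχ).exists
  have hG : WG (tr γ χ) G := hG
  have hccχ : CC γ.source (tr γ χ) := CC.tr (cc_of_test hχ sχ)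
  have hT0 : ∀ n, Test (moll volume (stdBump n) w) := fun n =>
    ⟨moll_contDiff _ hcc.loc, moll_hasCompactSupport _ hcc.supp⟩
  have hlim0 := tendsto_gL_moll hh hcc.cont hT0
  obtain ⟨N, hN⟩ := eventually_atTop.1
    (tsupport_moll_eventually hcc.supp γ.open_target hcc.sub)
  set wn : ℕ → ℂ → ℝ := fun n => moll volume (stdBump (n + N)) w with hwn
  have hT : ∀ n, Test (wn n) := fun n => hT0 (n + N)
  have hlim : Tendsto (fun n => gL (hT n)) atTop (𝓝 h) :=
    hlim0.comp (tendsto_add_atTop_nat N)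
  have hsup : ∀ n, tsupport (wn n) ⊆ γ.target := fun n => hN (n + N) (by omega)
  have hunif : ∀ ε > 0, ∀ᶠ n in atTop, ∀ x, dist (wn n x) (w x) ≤ ε := fun ε hε =>
    (tendsto_add_atTop_nat N).eventually (tendsto_moll_unif hcc.cont hcc.supp hε)
  have hξw : ξ = tr γ w := ((cc_of_test hξ sξ).tr_tr_symm).symm
  -- the limit inequality
  have key : ∀ t : ℝ, ‖gL hξ + t • G‖ ^ 2 ≤ ‖h + t • gL hχ‖ ^ 2 := by
    intro t
    have hWG : WG (fun x => ξ x + t * tr γ χ x) (gL hξ + t • G : L2C) :=
      (wg_gL hξ).addL (hG.smulL t) hξ.continuous.locallyIntegrable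
        (continuous_const.mul hccχ.cont).locallyIntegrable
    rw [← hWG.dirLe_iff]
    have hT' := fun n => test_add_mul (hT n) hχ t
    have sT' := fun n => tsupport_add_mul (hsup n) sχ t
    refine DirLe.of_tendsto (l := atTop)
      (un := fun n => tr γ (fun x => wn n x + t * χ x))
      (Mn := fun n => ‖gL (hT n) + t • gL hχ‖ ^ 2) ?_ ?_ ?_
    · refine Eventually.of_forall fun n => ?_
      have := h1 _ (hT' n).1 (hT' n).2 (sT' n)
      refine this.mono (le_of_eq ?_)
      rw [← norm_sq_gL (hT' n)]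
      have e : gL (hT' n) = gL (hT n) + t • gL hχ :=
        (wg_gL (hT' n)).eq ((wg_gL (hT n)).addL ((wg_gL hχ).smulL t)
          (hT n).continuous.locallyIntegrable
          (continuous_const.mul hχ.continuous).locallyIntegrable)
      rw [e]
    · exact ((hlim.add tendsto_const_nhds).norm).pow 2
    · refine distrib_of_locUnif (fun n => (CC.tr (cc_of_test (hT' n) (sT' n))).loc)
        (hξ.continuous.locallyIntegrable.add
          (continuous_const.mul hccχ.cont).locallyIntegrable) fun K hK => ?_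
      rw [Metric.tendstoUniformlyOn_iff]
      intro ε hε
      filter_upwards [hunif (ε / 2) (by positivity)] with n hn x _
      rw [hξw, ← tr_const_mul, ← tr_add]
      refine lt_of_le_of_lt (dist_tr_le (ε := ε / 2) (by positivity) (fun y => ?_) x)
        (by linarith)
      have := hn y
      rw [dist_comm] at this
      simpa [Real.dist_eq] using this
  have key2 : ip (gL hξ) G = ip h (gL hχ) := by
    refine linear_of_quadratic (c := ‖gL hχ‖ ^ 2 - ‖G‖ ^ 2) fun t => ?_
    have := key t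
    rw [norm_add_sq_real, norm_add_sq_real, inner_smul_right, inner_smul_right, norm_smul,
      norm_smul] at this
    have e1 : (inner ℝ (gL hξ) G : ℝ) = ip (gL hξ) G := rfl
    have e2 : (inner ℝ h (gL hχ) : ℝ) = ip h (gL hχ) := rfl
    rw [e1, e2, mul_pow, mul_pow, Real.norm_eq_abs, sq_abs] at this
    nlinarith
  rw [ip_comm h, hG.ip_gL hccχ.loc hξ, hh.ip_gL hcc.loc hχ] at key2
  exact neg_injective key2

/-- if `p` is harmonic on the whole plane then `p ∘ γ` is weakly harmonic on the source -/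
theorem weak_harmonic (h1 : Contr γ) (h2 : Contr γ.symm) {p : ℂ → ℝ} (hp : ContDiff ℝ ∞ p)
    (hΔ : ∀ x, (Δ p) x = 0) {ψ : ℂ → ℝ} (hψ : ContDiff ℝ ∞ ψ) (hc : HasCompactSupport ψ)
    (hs : tsupport ψ ⊆ γ.source) : ∫ z, p (γ z) * (Δ ψ) z = 0 := by
  have hT : Test ψ := ⟨hψ, hc⟩
  have hcc : CC γ.symm.target ψ := cc_of_test hT hs
  have hK : IsCompact (γ '' tsupport ψ) := hcc.isCompact_image (γ := γ.symm)
  have hKV : γ '' tsupport ψ ⊆ γ.target := hcc.image_subset (γ := γ.symm)
  obtain ⟨η, hη, hηc, hηs, hη1, -⟩ := exists_cutoff hK γ.open_target hKV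
  set χ : ℂ → ℝ := fun x => η x * p x with hχ
  have hTχ : Test χ := ⟨hη.mul hp, hηc.mul_right⟩
  have sχ : tsupport χ ⊆ γ.target :=
    (closure_mono (Function.support_mul_subset_left η p)).trans hηs
  have key := key_identity h1 h2 hT hs hTχ sχ
  have hnear : ∀ y ∈ γ '' tsupport ψ, χ =ᶠ[𝓝 y] p := by
    intro y hy
    filter_upwards [(eventually_nhdsSet_iff_forall.1 hη1) y hy] with z hz
    simp only [hχ, hz, one_mul]
  have e1 : ∀ x, tr γ χ x * (Δ ψ) x = p (γ x) * (Δ ψ) x := by
    intro x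
    by_cases hx : x ∈ tsupport ψ
    · rw [tr_mem (hs hx), (hnear _ ⟨x, hx, rfl⟩).self_of_nhds]
    · have : (Δ ψ) x = 0 := by
        have h0 : ψ =ᶠ[𝓝 x] fun _ => (0 : ℝ) :=
          notMem_tsupport_iff_eventuallyEq.1 hx
        rw [InnerProductSpace.laplacian_congr_nhds h0 |>.self_of_nhds]
        simp
      rw [this]; simp
  have e2 : ∀ x, tr γ.symm ψ x * (Δ χ) x = 0 := by
    intro x
    by_cases hx : x ∈ γ '' tsupport ψ
    · rw [(InnerProductSpace.laplacian_congr_nhds (hnear x hx)).self_of_nhds, hΔ, mul_zero]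
    · rw [hcc.tr_zero_of_notMem (γ := γ.symm) hx, zero_mul]
  simp only [e1, e2, integral_zero] at key
  exact key

end

end P198C5
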